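import Vale.Agent.Lib.P064X.Comps
import Vale.Agent.Lib.P064Sep.Comp

/-!
The count over a low set, with the general largeness hypothesis.
-/

open Finset

namespace Vale.Agent.Lib.P064

open scoped Classical

open Vale.Agent.Lib.P064N

variable {V α : Type} [Fintype V] [Fintype α] {H : SimpleGraph V} {F : SimpleGraph α} {n : ℕ}
  {q : ℝ}

/-- Induction on `|J|`. `J` empty: at most one restriction. Else take `P ⊆ J` nonempty minimal with no
edge of `F` between `P` and `J \ P`: it is connected. `J₂ = J \ P`. The map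
`proj (Y ∪ J) φ ↦ (proj (Y ∪ J₂) φ, proj (Y ∪ P) φ)` is injective, so the count is at most the
product. `eT F (Y ∪ P) J' = eT F (Y ∪ J) J'` for `J' ⊆ P` and likewise for `J₂`, `dW` too: no edges
between `P` and `J₂`. `newE F Y J` is the disjoint union of `newE F Y P`, `newE F Y J₂`. -/
theorem ycomps_count (hG : GoodDensity n q H) (hn : 1 ≤ n) (hq0 : 0 < q) (hqe : q ≤ Real.exp (-1))
    (hD : 1 ≤ (n : ℝ) * q) (hL : 1 ≤ Real.log n)
    {w : V → V → ℕ} {M c T : ℕ} (hw : ∀ a b, H.Adj a b → w a b + w b a = M)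
    (hs : ∀ a, ∑ b, w a b ≤ c) (hT : 1 ≤ T) (h2T : 2 * T ≤ M)
    {D' : ℕ} (hD1 : 1 ≤ D') (hD2 : c / T ≤ D')
    {μ : ℝ} (hμ : 0 < μ) (hμ3 : ∀ j m : ℕ, 1 ≤ j → (n : ℝ) ^ j * (Real.exp 1 * q) ^ m < 1 →
      M * m + T * j ≤ c * j + T * (m + 1) → μ ≤ (j : ℝ))
    {θ : ℝ} (hθ : 1 ≤ θ) (k : ℕ) :
    ∀ (Y J : Finset α), J.card ≤ k → Disjoint J Y →
    (∀ J' ⊆ J, J'.Nonempty → Low n q F (Y ∪ J) J') →
    (∀ v ∈ J, (dW F (Y ∪ J) v : ℝ) ≤ θ) →
    ∀ (S : Finset (α → V)), (∀ φ ∈ S, Function.Injective φ) →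
    (∀ φ ∈ S, ∀ u v, F.Adj u v → H.Adj (φ u) (φ v)) →
    ∀ (φ₀ : α → V), (∀ φ ∈ S, ∀ y ∈ Y, φ y = φ₀ y) →
    ((S.image (proj (Y ∪ J))).card : ℝ) ≤
      xCc D' ^ (newE F Y J).card * Real.exp ((J.card : ℝ) * Real.log (Real.log n * θ) / μ) := by
  induction k with
  | zero =>
    intro Y J hk _ _ _ S _ _ φ₀ hagree
    have hJ : J = ∅ := Finset.card_eq_zero.1 (Nat.le_zero.1 hk)
    subst hJ
    exact xc_empty hagree _ _ _
  | succ k ih =>
    intro Y J hk hdisj hlow hdeg S hinj hhom φ₀ hagree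
    by_cases hJ : J = ∅
    · subst hJ
      exact xc_empty hagree _ _ _
    obtain ⟨P, hPJ, hPne, hPno, hconn⟩ := xc_exists_piece (F := F) (Finset.nonempty_iff_ne_empty.2 hJ)
    set J₂ := J \ P with hJ₂
    have hJeq : J = P ∪ J₂ := by
      rw [hJ₂, Finset.union_sdiff_of_subset hPJ]
    have hJ₂J : J₂ ⊆ J := Finset.sdiff_subset
    have hdPJ₂ : Disjoint P J₂ := Finset.disjoint_sdiff
    have hdP : Disjoint P Y := Finset.disjoint_of_subset_left hPJ hdisj
    have hdJ₂ : Disjoint J₂ Y := Finset.disjoint_of_subset_left hJ₂J hdisj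
    have hcardJ : J.card = P.card + J₂.card := by
      rw [hJeq, Finset.card_union_of_disjoint hdPJ₂]
    have hPpos : 1 ≤ P.card := Finset.card_pos.2 hPne
    have hJ₂card : J₂.card ≤ k := by omega
    -- transfer
    have hsubP : Y ∪ P ⊆ Y ∪ J := Finset.union_subset_union_right hPJ
    have hsubJ₂ : Y ∪ J₂ ⊆ Y ∪ J := Finset.union_subset_union_right hJ₂J
    have htrP : ∀ J' ⊆ P, eT F (Y ∪ P) J' = eT F (Y ∪ J) J' := by
      intro J' hJ'
      refine xc_eT_transfer hsubP (hJ'.trans Finset.subset_union_right) ?_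
      intro u hu v hv huv
      rcases Finset.mem_union.1 hv with hv | hv
      · exact Finset.mem_union_left _ hv
      · by_cases hvP : v ∈ P
        · exact Finset.mem_union_right _ hvP
        · exact absurd huv (hPno u (hJ' hu) v (Finset.mem_sdiff.2 ⟨hv, hvP⟩))
    have htrJ₂ : ∀ J' ⊆ J₂, eT F (Y ∪ J₂) J' = eT F (Y ∪ J) J' := by
      intro J' hJ'
      refine xc_eT_transfer hsubJ₂ (hJ'.trans Finset.subset_union_right) ?_
      intro u hu v hv huv
      rcases Finset.mem_union.1 hv with hv | hv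
      · exact Finset.mem_union_left _ hv
      · by_cases hvP : v ∈ P
        · exact absurd huv.symm (hPno v hvP u (hJ' hu))
        · exact Finset.mem_union_right _ (Finset.mem_sdiff.2 ⟨hv, hvP⟩)
    -- the two bounds
    have hb2 := ih Y J₂ hJ₂card hdJ₂
      (by
        intro J' hJ' hJ'ne
        have := hlow J' (hJ'.trans hJ₂J) hJ'ne
        unfold Low at this ⊢
        rw [htrJ₂ J' hJ']
        exact this)
      (by
        intro v hv
        have := hdeg v (hJ₂J hv)
        unfold dW at this ⊢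
        rw [htrJ₂ {v} (Finset.singleton_subset_iff.2 hv)]
        exact this)
      S hinj hhom φ₀ hagree
    have hb1 := ycomp_count hG hn hq0 hqe hD hL hw hs hT h2T hD1 hD2 hμ hμ3 hθ hdP hPne hconn
      (by
        intro J' hJ' hJ'ne
        have := hlow J' (hJ'.trans hPJ) hJ'ne
        unfold Low at this ⊢
        rw [htrP J' hJ']
        exact this)
      (by
        intro v hv
        have := hdeg v (hPJ hv)
        unfold dW at this ⊢
        rw [htrP {v} (Finset.singleton_subset_iff.2 hv)]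
        exact this)
      hinj hhom hagree
    -- the product
    have hprod : ((S.image (proj (Y ∪ J))).card : ℝ) ≤
        ((S.image (proj (Y ∪ J₂))).card : ℝ) * ((S.image (proj (Y ∪ P))).card : ℝ) := by
      have := xc_card_prod (Y := Y) (P := P) (J₂ := J₂) S
      rw [← hJeq] at this
      exact_mod_cast this
    have hsplit : (newE F Y J).card = (newE F Y P).card + (newE F Y J₂).card := by
      have := xc_newE_split (F := F) hdP hdPJ₂
        (fun u hu v hv => hPno u hu v hv)
      rwa [← hJeq] at this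
    have hC0 : 0 ≤ xCc D' := le_trans zero_le_one (one_le_xCc hD1)
    calc ((S.image (proj (Y ∪ J))).card : ℝ)
        ≤ ((S.image (proj (Y ∪ J₂))).card : ℝ) * ((S.image (proj (Y ∪ P))).card : ℝ) := hprod
      _ ≤ (xCc D' ^ (newE F Y J₂).card * Real.exp ((J₂.card : ℝ) * Real.log (Real.log n * θ) / μ))
          * (xCc D' ^ (newE F Y P).card * Real.exp ((P.card : ℝ) * Real.log (Real.log n * θ) / μ)) :=
          mul_le_mul hb2 hb1 (Nat.cast_nonneg _) (by positivity)
      _ = xCc D' ^ (newE F Y J).card * Real.exp ((J.card : ℝ) * Real.log (Real.log n * θ) / μ) := by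
          rw [hsplit, hcardJ, pow_add]
          have hexp : Real.exp (((P.card + J₂.card : ℕ) : ℝ) * Real.log (Real.log n * θ) / μ) =
              Real.exp ((P.card : ℝ) * Real.log (Real.log n * θ) / μ) *
              Real.exp ((J₂.card : ℝ) * Real.log (Real.log n * θ) / μ) := by
            rw [← Real.exp_add]
            congr 1
            push_cast
            ring
          rw [hexp]
          ring

end Vale.Agent.Lib.P064
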